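import Vale.Agent.P208.Main

/-!
A doubling subset of separable Hilbert space with no bi-Lipschitz embedding into any
finite dimensional Euclidean space.
-/

namespace Vale.Agent.Results.P208.LangPlautFalse

open Metric Vale.Agent.P208

theorem result : ∃ X : Set (lp (fun _ : ℕ => ℝ) 2),
    (∃ lam : ℕ, ∀ x ∈ X, ∀ R : ℝ, 0 < R → ∃ t : Finset (lp (fun _ : ℕ => ℝ) 2),
      ↑t ⊆ X ∧ t.card ≤ lam ∧ X ∩ closedBall x R ⊆ ⋃ y ∈ t, closedBall y (R / 2)) ∧
    ∀ (k : ℕ) (f : X → EuclideanSpace ℝ (Fin k)) (a D : ℝ), 0 < a →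
      ¬ ∀ x y : X, a * dist x y ≤ ‖f x - f y‖ ∧ ‖f x - f y‖ ≤ D * a * dist x y := by
  classical
  refine ⟨setX, setX_doubling, fun k f a D ha hf => ?_⟩
  let g : lp (fun _ : ℕ => ℝ) 2 → EuclideanSpace ℝ (Fin k) :=
    fun z => if h : z ∈ setX then f ⟨z, h⟩ else 0
  have hg : LipschitzOnWith (D * a).toNNReal g setX := by
    refine LipschitzOnWith.of_dist_le_mul fun x hx y hy => ?_
    have h := (hf ⟨x, hx⟩ ⟨y, hy⟩).2
    rw [dist_eq_norm]
    simp only [g, dif_pos hx, dif_pos hy]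
    exact h.trans (mul_le_mul_of_nonneg_right (Real.le_coe_toNNReal _) dist_nonneg)
  obtain ⟨F, hF, hFg⟩ := hg.extend_finite_dimension
  refine not_antilipschitz (F := F)
    (K := ((lipschitzExtensionConstant (EuclideanSpace ℝ (Fin k)) * (D * a).toNNReal : NNReal) : ℝ))
    (fun u v => ?_) ha fun u hu v hv => ?_
  · have := hF.dist_le_mul u v
    rwa [dist_eq_norm, dist_eq_norm] at this
  · have h := (hf ⟨u, hu⟩ ⟨v, hv⟩).1
    rw [← hFg hu, ← hFg hv]
    simp only [g, dif_pos hu, dif_pos hv]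
    rwa [Subtype.dist_eq, dist_eq_norm] at h

end Vale.Agent.Results.P208.LangPlautFalse
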